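import Vale.Agent.P237.Bd3.B22

namespace Vale.Agent.Results.P237.AllDim5

open Vale.Agent.P237.Statement Module

/-- Every convex body has exactly one projection body; Petty's conjecture (sharp inequality and
equality cases) holds in dimensions three, four and five; and Petty's inequality holds in every
dimension `n ≥ 6` up to the factor `4/5`. -/
theorem result {V : Type} [NormedAddCommGroup V] [InnerProductSpace ℝ V] [FiniteDimensional ℝ V]
    [MeasurableSpace V] [BorelSpace V] :
    (∀ K : Set V, IsConvexBody K → ∃! L, IsProjectionBody K L) ∧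
      (∀ n : ℕ, 3 ≤ n → n ≤ 5 → finrank ℝ V = n → PettyIn V n) ∧
      (∀ n : ℕ, 6 ≤ n → finrank ℝ V = n → ∀ K L : Set V, IsConvexBody K → IsProjectionBody K L →
        4 / 5 * (kappa (n - 1) ^ n * kappa n ^ (2 - (n : ℤ)) * vol K ^ (n - 1)) ≤ vol L) :=
  ⟨fun _ hK => existsUnique_projectionBody hK,
    fun _ h3 h5 hd => Vale.Agent.P237.AllN.petty_from4 Vale.Agent.P237.AllN.range5 h3
      (h5.trans (le_max_right _ _)) hd,
    fun _ hn hd _ _ hK hL => Vale.Agent.P237.AllN.almost_from4 (by norm_num : 4 ≤ 5)
      Vale.Agent.P237.AllN.range5 Vale.Agent.P237.AllN.cstb_five (by omega) hd hK hL⟩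

end Vale.Agent.Results.P237.AllDim5
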