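import Vale.Agent.P237.Bd3.B30

namespace Vale.Agent.Results.P237.Petty

open Vale.Agent.P237.Statement Module

/-- **Petty's projection-volume conjecture in every dimension.** Every convex body has exactly one
projection body, and for every `n ≥ 3` and every convex body `K` of an `n`-dimensional real inner
product space Petty's inequality holds, with equality exactly for the ellipsoids. -/
theorem result {V : Type} [NormedAddCommGroup V] [InnerProductSpace ℝ V] [FiniteDimensional ℝ V]
    [MeasurableSpace V] [BorelSpace V] :
    (∀ K : Set V, IsConvexBody K → ∃! L, IsProjectionBody K L) ∧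
      (∀ n : ℕ, 3 ≤ n → finrank ℝ V = n → PettyIn V n) :=
  ⟨fun _ hK => existsUnique_projectionBody hK,
    fun _ hn hd => Vale.Agent.P237.AllN.petty_all hn hd⟩

end Vale.Agent.Results.P237.Petty
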